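import Mathlib.GroupTheory.FreeGroup.CyclicallyReduced
import Mathlib.Data.List.Rotate
import Mathlib.Algebra.Group.Conj
import Mathlib.Tactic

/-!
The star-path lemma (Artin's cancellation): a cyclic Hurwitz tuple `g = A * of x * A⁻¹` of a free
group whose product is conjugate to the product of the generators is reduced to the standard tuple
by at most `∑ |A|` Hurwitz moves.
-/

namespace Vale.Agent.P040.Hz

open FreeGroup

variable {α : Type*}

/-- the loop of the entry `(x, A)` -/
def gp (p : α × FreeGroup α) : FreeGroup α := p.2 * of p.1 * p.2⁻¹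

/-- `HzPath n L L'`: the list `L` of (leaf, loop) is transformed into `L'` by rotations (free of
charge) and `n` Hurwitz moves of neighbours -/
inductive HzPath {G : Type*} [Group G] : ℕ → List (α × G) → List (α × G) → Prop
  | refl (L : List (α × G)) : HzPath 0 L L
  | rot {n : ℕ} {L : List (α × G)} {p : α × G} {L' : List (α × G)} :
      HzPath n (L ++ [p]) L' → HzPath n (p :: L) L'
  | tw {n : ℕ} {x : α} {g : G} {y : α} {k : G} {R L' : List (α × G)} :
      HzPath n ((y, g * k * g⁻¹) :: (x, g) :: R) L' → HzPath (n + 1) ((x, g) :: (y, k) :: R) L'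
  | tw' {n : ℕ} {x : α} {g : G} {y : α} {k : G} {R L' : List (α × G)} :
      HzPath n ((y, k) :: (x, k⁻¹ * g * k) :: R) L' → HzPath (n + 1) ((x, g) :: (y, k) :: R) L'

lemma red_left {A B : List (α × Bool)} (h : IsReduced (A ++ B)) : IsReduced A :=
  (List.isChain_append.1 h).1

lemma red_right {A B : List (α × Bool)} (h : IsReduced (A ++ B)) : IsReduced B :=
  (List.isChain_append.1 h).2.1

/-- entries with words -/
abbrev Ent (α : Type*) := α × List (α × Bool)

/-- normal entries -/
def NF (p : Ent α) : Prop := IsReduced p.2 ∧ ∀ a ∈ p.2.getLast?, a.1 ≠ p.1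

/-- the loop of an entry -/
def lp (p : Ent α) : FreeGroup α := mk p.2 * of p.1 * (mk p.2)⁻¹

lemma mk_app (A B : List (α × Bool)) : (mk (A ++ B) : FreeGroup α) = mk A * mk B := by
  rw [mul_mk]

lemma mk_cons (a : α × Bool) (B : List (α × Bool)) :
    (mk (a :: B) : FreeGroup α) = mk [a] * mk B := by
  rw [mul_mk]; rfl

lemma mk_false (x : α) : (mk [(x, false)] : FreeGroup α) = (of x)⁻¹ := by
  rw [of, inv_mk]; rfl

lemma mk_true (x : α) : (mk [(x, true)] : FreeGroup α) = of x := rfl

lemma nf_word (x : α) (w : List (α × Bool)) (hw : IsReduced w) :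
    ∃ A : List (α × Bool), NF (x, A) ∧ lp (x, A) = mk w * of x * (mk w)⁻¹ ∧
      A.length ≤ w.length := by
  induction w using List.reverseRecOn with
  | nil => exact ⟨[], ⟨hw, by simp⟩, rfl, le_rfl⟩
  | append_singleton w a ih =>
    by_cases h : a.1 = x
    · obtain ⟨A, h1, h2, h3⟩ := ih (red_left hw)
      refine ⟨A, h1, ?_, h3.trans (by simp)⟩
      rw [h2, mk_app]
      obtain ⟨y, b⟩ := a
      simp only at h
      subst h
      cases b
      · rw [mk_false]; group
      · rw [mk_true]; group
    · refine ⟨w ++ [a], ⟨hw, ?_⟩, rfl, le_rfl⟩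
      intro b hb
      simp at hb
      subst hb
      exact h

lemma nf_ex [DecidableEq α] (x : α) (B : FreeGroup α) :
    ∃ A : List (α × Bool), NF (x, A) ∧ lp (x, A) = B * of x * B⁻¹ ∧ A.length ≤ B.norm := by
  obtain ⟨A, h1, h2, h3⟩ := nf_word x B.toWord isReduced_toWord
  refine ⟨A, h1, ?_, h3⟩
  rw [h2, mk_toWord]

lemma prefix_ex (A B : List (α × Bool)) : ∃ P U V : List (α × Bool), A = P ++ U ∧ B = P ++ V ∧
    ∀ u ∈ U.head?, ∀ v ∈ V.head?, u ≠ v := by
  classical
  induction A generalizing B with
  | nil => exact ⟨[], [], B, rfl, rfl, by simp⟩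
  | cons a A ih =>
    cases B with
    | nil => exact ⟨[], a :: A, [], rfl, rfl, by simp⟩
    | cons b B =>
      by_cases h : a = b
      · obtain ⟨P, U, V, h1, h2, h3⟩ := ih B
        exact ⟨a :: P, U, V, by rw [h1]; rfl, by rw [h2, ← h]; rfl, h3⟩
      · refine ⟨[], a :: A, b :: B, rfl, rfl, ?_⟩
        intro u hu v hv
        simp at hu hv
        rw [← hu, ← hv]
        exact h

/-- the second arm starts like the first one and then crosses its continuation -/
def Case1 (p q : Ent α) : Prop := ∃ C, q.2 = p.2 ++ (p.1, false) :: C
/-- the first arm starts like the second one and then crosses its continuation -/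
def Case2 (p q : Ent α) : Prop := ∃ C, p.2 = q.2 ++ (q.1, true) :: C

lemma getLast_append_mem {l₁ l₂ : List (α × Bool)} {a : α × Bool} (h : a ∈ l₂.getLast?) :
    a ∈ (l₁ ++ l₂).getLast? := by
  rw [List.getLast?_append]
  rw [Option.mem_def] at h ⊢
  rw [h]; rfl

lemma block (p q : Ent α) (hp : NF p) (hq : NF q) (h1 : ¬ Case1 p q) (h2 : ¬ Case2 p q) :
    ∃ D : List (α × Bool), IsReduced ((p.1, true) :: D ++ [(q.1, true)]) ∧
      (mk D : FreeGroup α) = (mk p.2)⁻¹ * mk q.2 ∧ (D = [] → p.2 = q.2) := by
  obtain ⟨P, U, V, hA, hB, hne⟩ := prefix_ex p.2 q.2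
  have hU : IsReduced U := red_right (hA ▸ hp.1)
  have hV : IsReduced V := red_right (hB ▸ hq.1)
  have hUi : IsReduced (invRev U) := by
    rw [FreeGroup.IsReduced, invRev, List.isChain_reverse, List.isChain_map]
    refine hU.imp fun a b hab => ?_
    simp only
    intro h
    rw [hab h.symm]
  refine ⟨invRev U ++ V, ?_, ?_, ?_⟩
  · -- reduced
    have hlastU : ∀ a ∈ U.getLast?, a.1 ≠ p.1 := fun a ha => hp.2 a (by
      rw [hA]; exact getLast_append_mem ha)
    have hlastV : ∀ a ∈ V.getLast?, a.1 ≠ q.1 := fun a ha => hq.2 a (by
      rw [hB]; exact getLast_append_mem ha)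
    have hc1 : U = [] → ∀ v ∈ V.head?, v ≠ (p.1, false) := by
      rintro rfl v hv rfl
      apply h1
      cases V with
      | nil => simp at hv
      | cons a V =>
        simp at hv
        refine ⟨V, ?_⟩
        rw [hB, hA, List.append_nil, hv]
    have hc2 : V = [] → ∀ u ∈ U.head?, u ≠ (q.1, true) := by
      rintro rfl u hu rfl
      apply h2
      cases U with
      | nil => simp at hu
      | cons a U =>
        simp at hu
        refine ⟨U, ?_⟩
        rw [hB, hA, List.append_nil, hu]
    have hhead : ∀ a ∈ (invRev U).head?, ∃ b ∈ U.getLast?, a = (b.1, !b.2) := by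
      intro a ha
      rw [invRev, List.head?_reverse, List.getLast?_map] at ha
      rw [Option.mem_def, Option.map_eq_some_iff] at ha
      obtain ⟨b, hb, rfl⟩ := ha
      exact ⟨b, hb, rfl⟩
    have hlast : ∀ a ∈ (invRev U).getLast?, ∃ b ∈ U.head?, a = (b.1, !b.2) := by
      intro a ha
      rw [invRev, List.getLast?_reverse, List.head?_map] at ha
      rw [Option.mem_def, Option.map_eq_some_iff] at ha
      obtain ⟨b, hb, rfl⟩ := ha
      exact ⟨b, hb, rfl⟩
    have hnil : invRev U = [] → U = [] := by
      intro h
      have := congrArg List.length h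
      rw [invRev_length] at this
      simpa using this
    have hmid : IsReduced (invRev U ++ V) := by
      rw [FreeGroup.IsReduced, List.isChain_append]
      refine ⟨hUi, hV, fun a ha v hv hav => ?_⟩
      obtain ⟨u, hu, rfl⟩ := hlast a ha
      have := hne u hu v hv
      simp only at hav ⊢
      by_contra hc
      apply this
      refine Prod.ext hav ?_
      cases hu2 : u.2 <;> cases hv2 : v.2 <;> simp_all
    rw [FreeGroup.IsReduced, List.isChain_append]
    refine ⟨?_, List.isChain_singleton _, ?_⟩
    · rw [List.isChain_cons]
      refine ⟨fun a ha hpa => ?_, hmid⟩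
      by_cases hU0 : U = []
      · subst hU0
        simp only [invRev, List.map_nil, List.reverse_nil, List.nil_append] at ha
        have := hc1 rfl a ha
        by_contra hc
        apply this
        refine Prod.ext hpa.symm ?_
        cases ha2 : a.2 <;> simp_all
      · exfalso
        have h3 : a ∈ (invRev U).head? := by
          cases hi : invRev U with
          | nil => exact absurd (hnil hi) hU0
          | cons c l => rw [hi] at ha; simpa using ha
        obtain ⟨b, hb, rfl⟩ := hhead a h3
        exact hlastU b hb hpa.symm
    · intro a ha b hb hab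
      simp only [List.head?_cons, Option.mem_def, Option.some.injEq] at hb
      subst hb
      by_cases hV0 : V = []
      · subst hV0
        by_cases hU0 : U = []
        · subst hU0
          simp [invRev] at ha
          rw [← ha]
        · have h3 : a ∈ (invRev U).getLast? := by
            cases hi : invRev U with
            | nil => exact absurd (hnil hi) hU0
            | cons c l =>
              rw [hi] at ha
              simpa using ha
          obtain ⟨u, hu, rfl⟩ := hlast a h3
          have := hc2 rfl u hu
          simp only at hab ⊢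
          by_contra hc
          apply this
          refine Prod.ext hab ?_
          cases hu2 : u.2 <;> simp_all
      · exfalso
        have h3 : a ∈ V.getLast? := by
          rw [← List.cons_append, List.getLast?_append_of_ne_nil _ hV0] at ha
          exact ha
        exact hlastV a h3 hab
  · rw [mk_app, ← inv_mk, hA, hB, mk_app, mk_app]; group
  · intro h
    rw [List.append_eq_nil_iff] at h
    obtain ⟨h3, rfl⟩ := h
    have h4 : U = [] := by
      have := congrArg List.length h3
      rw [invRev_length] at this
      simpa using this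
    subst h4
    rw [hA, hB]

/-- no cancellation at the pair -/
def Good (p q : Ent α) : Prop := ¬ Case1 p q ∧ ¬ Case2 p q

lemma walk (l : List (Ent α)) (p q : Ent α) (hp : NF p) (hq : NF q) (hl : ∀ r ∈ l, NF r)
    (hc : List.IsChain Good (p :: (l ++ [q]))) :
    ∃ W : List (α × Bool), IsReduced ((p.1, true) :: W ++ [(q.1, true)]) ∧
      (mk ((p.1, true) :: W) : FreeGroup α) = (mk p.2)⁻¹ * (lp p * (l.map lp).prod) * mk q.2 ∧
      l.length ≤ W.length ∧ (W.length = l.length → p.2 = q.2 ∧ ∀ r ∈ l, r.2 = p.2) := by
  induction l generalizing p with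
  | nil =>
    simp only [List.nil_append, List.isChain_cons_cons, List.isChain_singleton, and_true] at hc
    obtain ⟨D, h1, h2, h3⟩ := block p q hp hq hc.1 hc.2
    refine ⟨D, h1, ?_, Nat.zero_le _, ?_⟩
    · rw [mk_cons, h2, mk_true, lp]; simp only [List.map_nil, List.prod_nil]; group
    · intro h
      exact ⟨h3 (List.length_eq_zero_iff.1 h), by simp⟩
  | cons r l ih =>
    rw [List.cons_append, List.isChain_cons_cons] at hc
    have hr : NF r := hl r (by simp)
    obtain ⟨D, h1, h2, h3⟩ := block p r hp hr hc.1.1 hc.1.2
    obtain ⟨W, h4, h5, h6, h7⟩ := ih r hr (fun r' hr' => hl r' (by simp [hr'])) hc.2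
    refine ⟨D ++ (r.1, true) :: W, ?_, ?_, ?_, ?_⟩
    · have := IsReduced.append_overlap (L₁ := (p.1, true) :: D) (L₂ := [(r.1, true)])
        (L₃ := W ++ [(q.1, true)]) h1 (by simpa using h4) (by simp)
      simpa using this
    · have e : (p.1, true) :: (D ++ (r.1, true) :: W) = ([(p.1, true)] ++ D) ++ ((r.1, true) :: W) := by
        simp
      rw [e, mk_app, mk_app, h2, h5, mk_true, List.map_cons, List.prod_cons]
      have e2 : lp p = mk p.2 * of p.1 * (mk p.2)⁻¹ := rfl
      rw [e2]
      group
    · simp only [List.length_cons, List.length_append]; omega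
    · intro h
      simp only [List.length_cons, List.length_append] at h
      have hD : D.length = 0 := by omega
      obtain ⟨h8, h9⟩ := h7 (by omega)
      have h10 := h3 (List.length_eq_zero_iff.1 hD)
      refine ⟨h10.trans h8, ?_⟩
      intro r' hr'
      rcases List.mem_cons.1 hr' with rfl | hr'
      · exact h10.symm
      · rw [h9 r' hr', h10]

lemma norm_eq [DecidableEq α] {U : List (α × Bool)} (h : IsReduced U) :
    (mk U : FreeGroup α).norm = U.length := by
  rw [FreeGroup.norm, toWord_mk, h.reduce_eq]

lemma mk_flat (U : List (α × Bool)) (n : ℕ) :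
    (mk (List.replicate n U).flatten : FreeGroup α) = (mk U) ^ n := by
  induction n with
  | zero => rfl
  | succ n ih => rw [List.replicate_succ, List.flatten_cons, mk_app, ih, pow_succ']

lemma cyc_len {U V : List (α × Bool)} (hU : IsCyclicallyReduced U) (hV : IsCyclicallyReduced V)
    (h : IsConj (mk U : FreeGroup α) (mk V)) : U.length ≤ V.length := by
  classical
  obtain ⟨c, hc⟩ := isConj_iff.1 h
  have key : ∀ n : ℕ, n * U.length ≤ 2 * c.norm + n * V.length := by
    intro n
    have h1 : (mk U : FreeGroup α) ^ n = c⁻¹ * (mk V) ^ n * c := by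
      rw [← hc, conj_pow]; group
    have h2 : ((mk U : FreeGroup α) ^ n).norm = n * U.length := by
      rw [← mk_flat, norm_eq (hU.flatten_replicate n).isReduced]; simp
    have h3 : ((mk V : FreeGroup α) ^ n).norm = n * V.length := by
      rw [← mk_flat, norm_eq (hV.flatten_replicate n).isReduced]; simp
    have h4 := norm_mul_le (c⁻¹ * (mk V) ^ n) c
    have h5 := norm_mul_le c⁻¹ ((mk V) ^ n)
    rw [← h1, h2] at h4
    rw [norm_inv_eq, h3] at h5
    omega
  by_contra hlt
  push Not at hlt
  have := key (2 * c.norm + 1)
  nlinarith

/-- positive words -/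
def pw (X : List α) : List (α × Bool) := X.map fun x => (x, true)

lemma mk_pw (X : List α) : (mk (pw X) : FreeGroup α) = (X.map of).prod := by
  induction X with
  | nil => rfl
  | cons x X ih =>
    rw [List.map_cons, List.prod_cons, ← ih, ← mk_true, ← mk_cons]; rfl

lemma pw_cyc (X : List α) : IsCyclicallyReduced (pw X) := by
  rw [isCyclicallyReduced_iff]
  refine ⟨?_, ?_⟩
  · rw [FreeGroup.IsReduced, pw, List.isChain_map]
    induction X with
    | nil => exact List.isChain_nil
    | cons x X ih =>
      cases X with
      | nil => exact List.isChain_singleton _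
      | cons y X => exact List.isChain_cons_cons.2 ⟨fun _ => rfl, ih⟩
  · intro a ha b hb _
    have h1 : a ∈ pw X := List.mem_of_getLast? ha
    have h2 : b ∈ pw X := List.mem_of_mem_head? hb
    simp only [pw, List.mem_map] at h1 h2
    obtain ⟨_, _, rfl⟩ := h1
    obtain ⟨_, _, rfl⟩ := h2
    rfl

lemma rot_aux (Y : List α) (w : List (α × Bool)) (hw : IsReduced w) (X : List α)
    (hlen : X.length = Y.length)
    (h : (mk w : FreeGroup α) * mk (pw X) * (mk w)⁻¹ = mk (pw Y)) : Y ~r X := by
  classical
  induction w using List.reverseRecOn generalizing X with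
  | nil =>
    have h1 : (mk (pw X) : FreeGroup α) = mk (pw Y) := by
      rw [← h]; simp [← one_eq_mk]
    have h2 := congrArg toWord h1
    rw [toWord_mk, toWord_mk, (pw_cyc X).isReduced.reduce_eq, (pw_cyc Y).isReduced.reduce_eq] at h2
    have h3 : X = Y := by
      have := congrArg (List.map Prod.fst) h2
      simpa [pw, Function.comp_def] using this
    rw [h3]
  | append_singleton w a ih =>
    have hw' : IsReduced w := red_left hw
    cases X with
    | nil =>
      have : Y = [] := List.length_eq_zero_iff.1 hlen.symm
      rw [this]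
    | cons x X =>
      by_cases ha : a = (x, false)
      · subst ha
        have e : (mk w : FreeGroup α) * mk (pw (X ++ [x])) * (mk w)⁻¹ = mk (pw Y) := by
          rw [← h, mk_app, mk_false, mk_pw, mk_pw]
          simp only [List.map_append, List.map_cons, List.map_nil, List.prod_append,
            List.prod_cons, List.prod_nil]
          group
        have := ih hw' (X ++ [x]) (by simpa using hlen) e
        refine this.trans ?_
        exact (List.isRotated_iff_mod.2 ⟨1, by simp, by simp⟩).symm
      · obtain ⟨Z, z, hz⟩ : ∃ Z z, x :: X = Z ++ [z] :=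
          ⟨_, _, (List.dropLast_append_getLast (List.cons_ne_nil x X)).symm⟩
        by_cases hb : a = (z, true)
        · subst hb
          rw [hz] at h hlen ⊢
          have e : (mk w : FreeGroup α) * mk (pw (z :: Z)) * (mk w)⁻¹ = mk (pw Y) := by
            rw [← h, mk_app, mk_true, mk_pw, mk_pw]
            simp only [List.map_append, List.map_cons, List.map_nil, List.prod_append,
              List.prod_cons, List.prod_nil]
            group
          have := ih hw' (z :: Z) (by simpa using hlen) e
          refine this.trans ?_
          exact (List.isRotated_iff_mod.2 ⟨1, by simp, by simp⟩)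
        · exfalso
          have hred : IsReduced ((w ++ [a]) ++ pw (x :: X) ++ invRev (w ++ [a])) := by
            have hi : IsReduced (invRev (w ++ [a])) := by
              rw [FreeGroup.IsReduced, invRev, List.isChain_reverse, List.isChain_map]
              refine hw.imp fun a b hab => ?_
              simp only
              intro h
              rw [hab h.symm]
            rw [FreeGroup.IsReduced, List.isChain_append]
            refine ⟨?_, hi, ?_⟩
            · rw [List.isChain_append]
              refine ⟨hw, (pw_cyc _).isReduced, ?_⟩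
              intro u hu v hv huv
              simp [pw] at hu hv
              subst hu hv
              simp only at huv ⊢
              by_contra hc
              apply ha
              refine Prod.ext huv ?_
              cases h3 : a.2 <;> simp_all
            · intro u hu v hv huv
              have hu' : u = (z, true) := by
                rw [hz, pw, List.map_append, ← List.append_assoc, List.map_cons, List.map_nil,
                  List.getLast?_concat] at hu
                simpa using hu.symm
              have hv' : v = (a.1, !a.2) := by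
                simp [invRev] at hv
                exact hv.symm
              subst hu'
              subst hv'
              simp only at huv ⊢
              by_contra hc
              apply hb
              refine Prod.ext huv.symm ?_
              cases h3 : a.2 <;> simp_all
          have h5 : ((mk (w ++ [a]) : FreeGroup α) * mk (pw (x :: X)) * (mk (w ++ [a]))⁻¹).norm =
              ((w ++ [a]) ++ pw (x :: X) ++ invRev (w ++ [a])).length := by
            rw [← norm_eq hred, mk_app _ (invRev _), mk_app _ (pw _), ← inv_mk]
          rw [h, norm_eq (pw_cyc Y).isReduced] at h5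
          simp [pw] at h5
          simp at hlen
          omega

lemma rot_of_conj (X Y : List α) (h : IsConj (mk (pw X) : FreeGroup α) (mk (pw Y))) : Y ~r X := by
  classical
  have h1 := cyc_len (pw_cyc X) (pw_cyc Y) h
  have h2 := cyc_len (pw_cyc Y) (pw_cyc X) h.symm
  obtain ⟨c, hc⟩ := isConj_iff.1 h
  refine rot_aux Y c.toWord isReduced_toWord X (by simp [pw] at h1 h2; omega) ?_
  rw [mk_toWord, hc]

/-- the terminal case -/
lemma terminal (K : List α) (p : Ent α) (l : List (Ent α)) (hl : ∀ r ∈ p :: l, NF r)
    (hc : List.IsChain Good (p :: (l ++ [p]))) (hK : K.length = (p :: l).length)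
    (h : IsConj ((p :: l).map lp).prod (K.map of).prod) :
    (∀ r ∈ p :: l, r.2 = p.2) ∧ (p :: l).map Prod.fst ~r K := by
  have hp : NF p := hl p (by simp)
  obtain ⟨W, h1, h2, h3, h4⟩ := walk l p p hp hp (fun r hr => hl r (by simp [hr])) hc
  have hcyc : IsCyclicallyReduced ((p.1, true) :: W) := by
    rw [isCyclicallyReduced_iff]
    refine ⟨red_left h1, ?_⟩
    intro a ha b hb hab
    rw [FreeGroup.IsReduced, List.isChain_append] at h1
    simp at hb
    subst hb
    exact h1.2.2 a ha (p.1, true) (by simp) hab
  have hcj : IsConj (mk ((p.1, true) :: W) : FreeGroup α) (mk (pw K)) := by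
    rw [mk_pw]
    refine IsConj.trans ?_ h
    rw [h2]
    refine isConj_iff.2 ⟨mk p.2, ?_⟩
    simp only [List.map_cons, List.prod_cons]
    group
  have hlen := cyc_len hcyc (pw_cyc K) hcj
  have h5 : W.length = l.length := by
    simp [pw] at hlen
    simp at hK
    omega
  obtain ⟨h6, h7⟩ := h4 h5
  have h8 : ∀ r ∈ p :: l, r.2 = p.2 := by
    intro r hr
    rcases List.mem_cons.1 hr with rfl | hr
    · rfl
    · exact h7 r hr
  refine ⟨h8, ?_⟩
  have h9 : ∀ l' : List (Ent α), (∀ r ∈ l', r.2 = p.2) →
      (l'.map lp).prod = mk p.2 * ((l'.map Prod.fst).map of).prod * (mk p.2)⁻¹ := by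
    intro l' hl'
    induction l' with
    | nil => simp only [List.map_nil, List.prod_nil]; group
    | cons r l' ih =>
      rw [List.map_cons, List.prod_cons, ih (fun r' hr' => hl' r' (by simp [hr'])), lp,
        hl' r (by simp)]
      simp only [List.map_cons, List.prod_cons]
      group
  have h10 := h9 (p :: l) h8
  refine rot_of_conj _ _ ?_
  rw [mk_pw, mk_pw]
  refine h.symm.trans ?_
  rw [h10]
  exact (isConj_iff.2 ⟨mk p.2, rfl⟩ : IsConj _ _).symm

lemma HzPath.rotl {G : Type*} [Group G] {n : ℕ} (L₁ L₂ : List (α × G)) {L' : List (α × G)}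
    (h : HzPath n (L₂ ++ L₁) L') : HzPath n (L₁ ++ L₂) L' := by
  induction L₁ generalizing L₂ with
  | nil => simpa using h
  | cons a L₁ ih =>
    refine HzPath.rot ?_
    change HzPath n ((L₁ ++ L₂) ++ [a]) L'
    rw [List.append_assoc]
    exact ih (L₂ ++ [a]) (by simpa using h)

lemma not_chain {β : Type*} {R : β → β → Prop} (l : List β) (h : ¬ List.IsChain R l) :
    ∃ l₁ a b l₂, l = l₁ ++ a :: b :: l₂ ∧ ¬ R a b := by
  induction l with
  | nil => exact absurd List.isChain_nil h
  | cons a l ih =>
    cases l with
    | nil => exact absurd (List.isChain_singleton _) h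
    | cons b l =>
      by_cases hab : R a b
      · obtain ⟨l₁, c, d, l₂, h1, h2⟩ := ih (fun h3 => h (List.isChain_cons_cons.2 ⟨hab, h3⟩))
        exact ⟨a :: l₁, c, d, l₂, by rw [h1]; rfl, h2⟩
      · exact ⟨[], a, b, l, rfl, hab⟩

lemma good_self (p : Ent α) : Good p p := by
  constructor
  · rintro ⟨C, hC⟩
    have := congrArg List.length hC
    simp at this
  · rintro ⟨C, hC⟩
    have := congrArg List.length hC
    simp at this

lemma split_cases (p : Ent α) (l : List (Ent α)) :
    List.IsChain Good (p :: (l ++ [p])) ∨
    ∃ l₁ l₂ a b R, p :: l = l₁ ++ l₂ ∧ l₂ ++ l₁ = a :: b :: R ∧ ¬ Good a b := by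
  by_cases h : List.IsChain Good (p :: (l ++ [p]))
  · exact Or.inl h
  · right
    obtain ⟨l₁, a, b, l₂, h1, h2⟩ := not_chain _ h
    rcases List.eq_nil_or_concat l₂ with rfl | ⟨l₂', c, rfl⟩
    · have h3 : p :: l = l₁ ++ [a] ∧ p = b := by
        have h4 : (p :: l) ++ [p] = (l₁ ++ [a]) ++ [b] := by simpa using h1
        exact ⟨List.append_inj_left' h4 rfl, by simpa using List.append_inj_right' h4 rfl⟩
      obtain ⟨h3, rfl⟩ := h3
      cases l₁ with
      | nil =>
        simp at h3
        rw [← h3.1] at h2
        exact absurd (good_self p) h2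
      | cons c l₁ =>
        simp at h3
        obtain ⟨rfl, h3⟩ := h3
        exact ⟨p :: l₁, [a], a, p, l₁, by simp [h3], by simp, h2⟩
    · have h4 : (p :: l) ++ [p] = (l₁ ++ a :: b :: l₂') ++ [c] := by simpa using h1
      have h5 := List.append_inj_left' h4 rfl
      exact ⟨l₁, a :: b :: l₂', a, b, l₂' ++ l₁, h5, by simp, h2⟩

lemma prod_rot {G : Type*} [Group G] (l₁ l₂ : List G) : IsConj (l₁ ++ l₂).prod (l₂ ++ l₁).prod := by
  rw [List.prod_append, List.prod_append]
  exact isConj_iff.2 ⟨l₁.prod⁻¹, by group⟩

lemma hz_nf (K : List α) : ∀ (N : ℕ) (L : List (Ent α)), (L.map (fun p => p.2.length)).sum = N →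
    (∀ p ∈ L, NF p) → (L.map Prod.fst).Perm K → IsConj (L.map lp).prod (K.map of).prod →
    ∃ n K' P, n ≤ N ∧ K' ~r K ∧
      HzPath n (L.map fun p => (p.1, lp p)) (K'.map fun y => (y, P * of y * P⁻¹)) := by
  classical
  intro N
  induction N using Nat.strong_induction_on with
  | _ N ih =>
  intro L hN hL hp hc
  cases L with
  | nil =>
    simp at hp
    subst hp
    exact ⟨0, [], 1, Nat.zero_le _, List.IsRotated.refl _, HzPath.refl _⟩
  | cons p l =>
    rcases split_cases p l with h | ⟨l₁, l₂, a, b, R, h1, h2, h3⟩
    · obtain ⟨h4, h5⟩ := terminal K p l hL h (by simpa using hp.length_eq.symm) hc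
      refine ⟨0, (p :: l).map Prod.fst, mk p.2, Nat.zero_le _, h5, ?_⟩
      have h6 : (p :: l).map (fun p => (p.1, lp p)) = ((p :: l).map Prod.fst).map
          fun y => (y, mk p.2 * of y * (mk p.2)⁻¹) := by
        rw [List.map_map]
        apply List.map_congr_left
        intro r hr
        simp only [Function.comp, lp, h4 r hr]
      rw [h6]
      exact HzPath.refl _
    · rw [h1] at hN hL hp hc ⊢
      obtain ⟨x, A⟩ := a
      obtain ⟨y, B⟩ := b
      have hmem : ∀ r, r ∈ l₁ ++ l₂ ↔ r = (x, A) ∨ r = (y, B) ∨ r ∈ R := by
        intro r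
        rw [List.mem_append, or_comm, ← List.mem_append, h2]; simp
      have hR : ∀ r ∈ R, NF r := fun r hr => hL r ((hmem r).2 (Or.inr (Or.inr hr)))
      have hA : NF (x, A) := hL _ ((hmem _).2 (Or.inl rfl))
      have hB : NF (y, B) := hL _ ((hmem _).2 (Or.inr (Or.inl rfl)))
      have hs : A.length + (B.length + (R.map (fun p => p.2.length)).sum) = N := by
        rw [← hN, List.map_append, List.sum_append, add_comm (l₁.map _).sum, ← List.sum_append,
          ← List.map_append, h2]; simp
      have hpp : (x :: y :: R.map Prod.fst).Perm K := by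
        refine List.Perm.trans ?_ hp
        have : x :: y :: R.map Prod.fst = (l₂ ++ l₁).map Prod.fst := by rw [h2]; simp
        rw [this, List.map_append, List.map_append]
        exact List.perm_append_comm
      have hcc : IsConj (lp (x, A) * (lp (y, B) * (R.map lp).prod)) (K.map of).prod := by
        refine IsConj.trans ?_ hc
        have : lp (x, A) * (lp (y, B) * (R.map lp).prod) = ((l₂ ++ l₁).map lp).prod := by
          rw [h2]; simp
        rw [this, List.map_append, List.map_append]
        exact prod_rot _ _
      have hgoal : ∀ (n : ℕ) (K' : List α) (P : FreeGroup α), HzPath n ((x, lp (x, A)) :: (y, lp (y, B)) :: R.map fun p => (p.1, lp p))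
          (K'.map fun y => (y, P * of y * P⁻¹)) →
          HzPath n ((l₁ ++ l₂).map fun p => (p.1, lp p))
          (K'.map fun y => (y, P * of y * P⁻¹)) := by
        intro n K' P h
        rw [List.map_append]
        apply HzPath.rotl
        rw [← List.map_append, h2]
        simpa using h
      rw [Good, not_and_or, not_not, not_not] at h3
      rcases h3 with ⟨C, hC⟩ | ⟨C, hC⟩
      · simp only at hC
        obtain ⟨B', hB', hlB', hlen⟩ := nf_ex y (mk (A ++ C) : FreeGroup α)
        have hle : B'.length < B.length := by
          refine lt_of_le_of_lt (hlen.trans norm_mk_le) ?_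
          rw [hC]; simp
        have hk : lp (y, B') = lp (x, A) * lp (y, B) * (lp (x, A))⁻¹ := by
          rw [hlB', lp, lp]
          simp only
          rw [hC, mk_app, mk_app, mk_cons, mk_false]
          group
        obtain ⟨n, K', P, h4, h5, h6⟩ := ih (B'.length + (A.length + (R.map (fun p => p.2.length)).sum))
          (by omega) ((y, B') :: (x, A) :: R) (by simp)
          (by
            intro r hr
            simp only [List.mem_cons] at hr
            rcases hr with rfl | rfl | hr
            · exact hB'
            · exact hA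
            · exact hR r hr)
          ((List.Perm.swap _ _ _).trans hpp)
          (by
            refine IsConj.trans ?_ hcc
            have : ((((y, B') :: (x, A) :: R)).map lp).prod =
                lp (x, A) * (lp (y, B) * (R.map lp).prod) := by
              simp only [List.map_cons, List.prod_cons]
              rw [hk]; group
            rw [this])
        refine ⟨n + 1, K', P, by omega, h5, hgoal _ _ _ (HzPath.tw ?_)⟩
        rw [← hk]
        simpa using h6
      · simp only at hC
        obtain ⟨B', hB', hlB', hlen⟩ := nf_ex x (mk (B ++ C) : FreeGroup α)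
        have hle : B'.length < A.length := by
          refine lt_of_le_of_lt (hlen.trans norm_mk_le) ?_
          rw [hC]; simp
        have hk : lp (x, B') = (lp (y, B))⁻¹ * lp (x, A) * lp (y, B) := by
          rw [hlB', lp, lp]
          simp only
          rw [hC, mk_app, mk_app, mk_cons, mk_true]
          group
        obtain ⟨n, K', P, h4, h5, h6⟩ := ih (B.length + (B'.length + (R.map (fun p => p.2.length)).sum))
          (by omega) ((y, B) :: (x, B') :: R) (by simp)
          (by
            intro r hr
            simp only [List.mem_cons] at hr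
            rcases hr with rfl | rfl | hr
            · exact hB
            · exact hB'
            · exact hR r hr)
          ((List.Perm.swap _ _ _).trans hpp)
          (by
            refine IsConj.trans ?_ hcc
            have : ((((y, B) :: (x, B') :: R)).map lp).prod =
                lp (x, A) * (lp (y, B) * (R.map lp).prod) := by
              simp only [List.map_cons, List.prod_cons]
              rw [hk]; group
            rw [this])
        refine ⟨n + 1, K', P, by omega, h5, hgoal _ _ _ (HzPath.tw' ?_)⟩
        rw [← hk]
        simpa using h6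

/-- **The star-path lemma.** A tuple of loops `A x A⁻¹`, one for each generator, whose product is
conjugate to the product of the generators (in the order `K`), is transformed into a rotation of
the standard tuple by at most `∑ |A|` Hurwitz moves. -/
theorem hz_path [DecidableEq α] (K : List α) (L : List (α × FreeGroup α))
    (hp : (L.map Prod.fst).Perm K) (hc : IsConj (L.map gp).prod (K.map of).prod) :
    ∃ n K' P, n ≤ (L.map fun p => p.2.norm).sum ∧ K' ~r K ∧
      HzPath n (L.map fun p => (p.1, gp p)) (K'.map fun y => (y, P * of y * P⁻¹)) := by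
  classical
  choose f hf using fun p : α × FreeGroup α => nf_ex p.1 p.2
  set M : List (Ent α) := L.map fun p => (p.1, f p) with hM
  have e1 : M.map Prod.fst = L.map Prod.fst := by rw [hM, List.map_map]; rfl
  have e2 : M.map lp = L.map gp := by
    rw [hM, List.map_map]
    apply List.map_congr_left
    intro p _
    exact (hf p).2.1
  have e3 : (M.map fun p => (p.1, lp p)) = L.map fun p => (p.1, gp p) := by
    rw [hM, List.map_map]
    apply List.map_congr_left
    intro p _
    exact Prod.ext rfl (hf p).2.1
  have e4 : (M.map (fun p => p.2.length)).sum ≤ (L.map fun p => p.2.norm).sum := by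
    rw [hM, List.map_map]
    apply List.sum_le_sum
    intro p _
    exact (hf p).2.2
  obtain ⟨n, K', P, h1, h2, h3⟩ := hz_nf K _ M rfl
    (by
      intro p hp
      rw [hM, List.mem_map] at hp
      obtain ⟨q, _, rfl⟩ := hp
      exact (hf q).1) (by rw [e1]; exact hp) (by rw [e2]; exact hc)
  rw [e3] at h3
  exact ⟨n, K', P, h1.trans e4, h2, h3⟩

end Vale.Agent.P040.Hz
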